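import Vale.Agent.P073Y.Bd.Defs
import Vale.Agent.P073Z.Sk3

/-!
# The top chain for exponents below three: definitions and geometric statements
-/

open Set Metric Topology Filter MeasureTheory
open scoped NNReal ENNReal

namespace P073.Top

open P073.Bd (Chart)

/-- the source complex with scales and chart constants -/
structure Src (Ω : Set E3) where
  /-- the complex -/
  Q : RCx E3
  cvx : Q.Cvx
  carrier : Q.carrier = Ω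
  /-- the scales -/
  r : Q.ι → ℝ≥0
  /-- the chart constants -/
  M : Q.ι → ℝ≥0
  r_pos : ∀ c, 0 < r c
  M_ge : ∀ c, 1 ≤ M c
  chart : ∀ c, 2 ≤ Q.dim c → Chart (Q.dim c) (Q.cell c) (Q.bd c) (M c / r c) (M c * r c)

/-- the Lipschitz constant on a set -/
noncomputable def lipc {S T : Type} [PseudoEMetricSpace S] [PseudoEMetricSpace T] (g : S → T)
    (X : Set S) : ℝ≥0∞ := ⨆ (x ∈ X) (y ∈ X), edist (g x) (g y) / edist x y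

variable {Ω : Set E3}

open Classical in
/-- the sum of the Lipschitz constants on the wires of a cell -/
noncomputable def Src.A (S : Src Ω) (g : E3 → E3) (φ : S.Q.ι) : ℝ≥0∞ :=
  ∑' e : S.Q.ι, if S.Q.dim e = 1 ∧ S.Q.cell e ⊆ S.Q.cell φ then lipc g (S.Q.cell e) else 0

/-- the wire weight of a face -/
noncomputable def Src.W (S : Src Ω) (p : ℝ) (g : E3 → E3) (φ : S.Q.ι) : ℝ≥0∞ :=
  (S.r φ : ℝ≥0∞) ^ 2 * S.A g φ ^ p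

/-- the energy of a face -/
noncomputable def Src.E (S : Src Ω) (p : ℝ) (g : E3 → E3) (φ : S.Q.ι) : ℝ≥0∞ :=
  En 2 p g (S.Q.cell φ)

/-- the cells whose images meet `Z` have images of diameter at most `o` -/
def Src.Osc (S : Src Ω) (g : E3 → E3) (Z : Set E3) (o : ℝ) : Prop :=
  ∀ c, (g '' S.Q.cell c ∩ Z).Nonempty → ∀ x ∈ S.Q.cell c, ∀ y ∈ S.Q.cell c, dist (g x) (g y) ≤ o

/-- the sum of the variations of the two lateral coordinates -/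
noncomputable def lat (g : E3 → E3) (x y : E3) : ℝ≥0∞ :=
  segVar (fun u => g u 0) x y + segVar (fun u => g u 1) x y

/-- the sharp clause on the wire from `x` to `y` -/
def SharpE (g h : E3 → E3) (x y : E3) (θ : ℝ) (η : ℝ≥0∞) : Prop :=
  ∀ u ∈ segment ℝ x y, ∀ w ∈ segment ℝ x y,
    (edist (h u 0) (h w 0) + edist (h u 1) (h w 1) + edist (h u 2) (h w 2)) * edist x y ≤
      (ENNReal.ofReal (1 + θ) * lat g x y + η) * edist u w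

/-- the lateral displacement of `h` along the wire from `x` to `y` -/
def Rise (g h : E3 → E3) (x y : E3) (ϑ : ℝ) (η : ℝ≥0∞) : Prop :=
  edist (h y 0) (h x 0) + edist (h y 1) (h x 1) ≤ ENNReal.ofReal (1 + ϑ) * lat g x y + η

/-- a corner of the square: coordinate `i` is `s`, the other one is `t` -/
def cor (i : Fin 2) (s t : ℝ) : E2 := fun k => if k = i then s else t

/-- a marked square face: `ψ` is its affine parametrisation, its sides are wires on which the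
lateral variation of `g` is almost `2 a` at most -/
structure Marked (S : Src Ω) (g : E3 → E3) (θ : ℝ) (φ : S.Q.ι) (ψ : E2 →ᵃ[ℝ] E3) (a : ℝ) :
    Prop where
  dim : S.Q.dim φ = 2
  inj : Function.Injective ψ
  cell : S.Q.cell φ = ψ '' closedBall 0 1
  pos : 0 < a
  side : ∀ (i : Fin 2) (t : ℝ), (t = 1 ∨ t = -1) → (∃ e, S.Q.dim e = 1 ∧
    S.Q.cell e = segment ℝ (ψ (cor i (-1) t)) (ψ (cor i 1 t))) ∧
    lat g (ψ (cor i (-1) t)) (ψ (cor i 1 t)) ≤ ENNReal.ofReal ((1 + θ) * (2 * a))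

/-- the sharp clause on a marked face -/
def SharpF (p : ℝ) (h : E3 → E3) (ψ : E2 →ᵃ[ℝ] E3) (a θ c : ℝ) (η : ℝ≥0∞) : Prop :=
  (∀ (i : Fin 2) (t : ℝ), (t = 1 ∨ t = -1) →
    (1 - θ) * (2 * a) ≤ h (ψ (cor i 1 t)) i.castSucc - h (ψ (cor i (-1) t)) i.castSucc) →
  En 2 p (fun v : E2 => h (ψ v) - a • (![v 0, v 1, 0] : E3)) (closedBall 0 1) ≤
    ENNReal.ofReal (θ * (c * a) ^ p) + η

/-! ### one box -/

/-- the box with a margin -/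
def mbox (lo hi : E3) (μ : ℝ) : Set E3 := Icc (fun i => lo i - μ) (fun i => hi i + μ)

/-- the top and the bottom of a two family box -/
def Rim (lo hi : E3) (J : Finset (Fin 3)) : Set E3 :=
  {y ∈ Icc lo hi | J.card = 2 ∧ ∃ i, i ∉ J ∧ (y i = lo i ∨ y i = hi i)}

/-- the image of `X` stays away from `Z` -/
def Away (g : E3 → E3) (X Z : Set E3) (d : ℝ) : Prop := ∀ x ∈ X, ∀ y ∈ Z, d < dist (g x) y

/-- the image of `X` is deep inside the box -/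
def Deep (g : E3 → E3) (X : Set E3) (lo hi : E3) (d : ℝ) : Prop :=
  ∀ x ∈ X, ∀ i, lo i + d ≤ g x i ∧ g x i ≤ hi i - d

/-- the ideal collapse of a box in the directions not in `J` -/
structure Coll (lo hi : E3) (μ : ℝ) (J : Finset (Fin 3)) (C : ℝ≥0) (Ψ : E3 → E3) : Prop where
  lip : LipschitzWith C Ψ
  off : ∀ y, y ∉ interior (mbox lo hi μ) → Ψ y = y
  fix : ∀ y, ∀ i ∈ J, Ψ y i = y i
  mono : ∀ y i, i ∉ J → Ψ y i ∈ uIcc ((lo i + hi i) / 2) (y i)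
  core : ∀ y ∈ Icc lo hi, ∀ i, i ∉ J → Ψ y i = (lo i + hi i) / 2
  inv : ∀ y y', (∀ i, i ∉ J → 0 < (Ψ y i - (lo i + hi i) / 2) * (Ψ y' i - (lo i + hi i) / 2)) →
    dist y y' ≤ C * dist (Ψ y) (Ψ y')

/-- normalisation in one box -/
def STAGE (p : ℝ) : Prop := ∃ c : ℝ, 1 ≤ c ∧ ∀ θ : ℝ, 0 < θ → θ ≤ 1 / 1000 →
  ∃ (C : ℝ≥0) (CM : ℝ≥0 → ℝ≥0), 1 ≤ C ∧ ∀ ϑ : ℝ, 0 < ϑ → ϑ ≤ θ → ∃ K : ℝ≥0, 1 ≤ K ∧
  ∀ {Ω Λ : Set E3} (S : Src Ω) (g : ConHomeo Ω Λ) (lo hi : E3) (μ o : ℝ) (J : Finset (Fin 3))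
    (η : ℝ≥0∞) (𝓢 : Set S.Q.ι) (ψ : S.Q.ι → (E2 →ᵃ[ℝ] E3)) (a : S.Q.ι → ℝ),
  IsOpen Ω → IsOpen Λ → J.card ≤ 2 → 0 < o → K * o ≤ μ → (∀ i, lo i + μ ≤ hi i) →
  (∀ i, i ∉ J → hi i - lo i ≤ 16 * μ) → mbox lo hi μ ⊆ Λ → S.Osc g.toFun (mbox lo hi μ) o →
  0 < η → (∀ φ ∈ 𝓢, Marked S g.toFun θ φ (ψ φ) (a φ)) →
  ∃ (h : ConHomeo Ω Λ) (Ψ : E3 → E3), Coll lo hi μ J C Ψ ∧
    (∀ x ∈ Ω, g.toFun x ∉ interior (mbox lo hi μ) → h.toFun x = g.toFun x) ∧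
    (∀ x ∈ Ω, dist (h.toFun x) (Ψ (g.toFun x)) ≤ K * o) ∧
    (∀ e, S.Q.dim e = 1 → Away g.toFun (S.Q.cell e) (Rim lo hi J) (2 * o) →
      lipc h.toFun (S.Q.cell e) ≤ C * lipc g.toFun (S.Q.cell e) + η) ∧
    (∀ φ, S.Q.dim φ = 2 → Away g.toFun (S.Q.cell φ) (Rim lo hi J) (2 * o) →
      S.E p h.toFun φ ≤ C * S.E p g.toFun φ + CM (S.M φ) * S.W p g.toFun φ + η) ∧
    (∀ φ, S.Q.dim φ = 2 → Deep g.toFun (S.Q.cell φ) lo hi (2 * o) →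
      S.E p h.toFun φ ≤ CM (S.M φ) * S.W p g.toFun φ + η) ∧
    (J = {0, 1} →
      (∀ e x y, S.Q.dim e = 1 → S.Q.cell e = segment ℝ x y →
        Deep g.toFun (S.Q.cell e) lo hi (2 * o) →
          SharpE g.toFun h.toFun x y θ η ∧ Rise g.toFun h.toFun x y ϑ η) ∧
      ∀ φ ∈ 𝓢, Deep g.toFun (S.Q.cell φ) lo hi (2 * o) →
        SharpF p h.toFun (ψ φ) (a φ) θ c η)

/-! ### the lattice of boxes -/

/-- the sides of the boxes -/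
def wd (N : ℕ) : E3 := ![N, N, 1]

/-- the lattice box shrunk by `κ` -/
def lbox (N : ℕ) (κ : ℝ) (z : Fin 3 → ℤ) : Set E3 :=
  Icc (fun i => z i * wd N i + κ) (fun i => (z i + 1) * wd N i - κ)

/-- the indices at distance at most `k` from `B` -/
def nbr (k : ℕ) (B : Set (Fin 3 → ℤ)) : Set (Fin 3 → ℤ) := {z | ∃ z' ∈ B, ∀ i, |z i - z' i| ≤ k}

/-- the sharp region round the bottom face of the box `z` -/
def shr (N : ℕ) (κ : ℝ) (z : Fin 3 → ℤ) : Set E3 := {y | |y 2 - z 2| ≤ 2 * κ ∧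
  ∀ i, i ≠ 2 → z i * wd N i + 1 / 2 ≤ y i ∧ y i ≤ (z i + 1) * wd N i - 1 / 2}

/-- the ideal collapse of a round -/
structure Col (N : ℕ) (κ : ℝ) (Bp : Set (Fin 3 → ℤ)) (C : ℝ≥0) (Ψ : E3 → E3) : Prop where
  lip : LipschitzWith C Ψ
  off : ∀ y, y ∉ interior (⋃ z ∈ Bp, lbox N 0 z) → Ψ y = y
  keep : ∀ z, MapsTo Ψ (lbox N 0 z) (lbox N 0 z)
  inv : ∀ z y y', Ψ y ∈ interior (lbox N 0 z) → Ψ y' ∈ interior (lbox N 0 z) →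
    dist y y' ≤ C * dist (Ψ y) (Ψ y')
  lat : ∀ z, ∀ y ∈ shr N κ z, ∀ i, i ≠ 2 → Ψ y i = y i

/-- the image of `X` misses the holes -/
def Miss (N : ℕ) (κ : ℝ) (Bp : Set (Fin 3 → ℤ)) (g : E3 → E3) (X : Set E3) : Prop :=
  ∀ z ∈ Bp, Disjoint (g '' X) (lbox N κ z)

/-- faces, edges and vertices of the boxes of `B`, with holes in the neighbouring boxes -/
def ROUND (p : ℝ) : Prop := ∃ κ c : ℝ, 0 < κ ∧ κ ≤ 1 / 100 ∧ 1 ≤ c ∧ ∀ θ : ℝ, 0 < θ →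
  θ ≤ 1 / 1000 → ∃ (C : ℝ≥0) (CM : ℝ≥0 → ℝ≥0), 1 ≤ C ∧ ∀ ϑ : ℝ, 0 < ϑ → ϑ ≤ θ →
  ∃ K : ℝ≥0, 1 ≤ K ∧
  ∀ {Ω Λ : Set E3} (S : Src Ω) (g : ConHomeo Ω Λ) (N : ℕ) (B : Set (Fin 3 → ℤ))
    (o : (Fin 3 → ℤ) → ℝ) (η : ℝ≥0∞) (𝓢 : Set S.Q.ι)
    (ψ : S.Q.ι → (E2 →ᵃ[ℝ] E3)) (a : S.Q.ι → ℝ),
  IsOpen Ω → IsOpen Λ → 1 ≤ N → B.Finite → 0 < η →
  (∀ z ∈ nbr 1 B, lbox N 0 z ⊆ Λ ∧ 0 < o z ∧ K * o z ≤ 1 ∧ S.Osc g.toFun (lbox N 0 z) (o z)) →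
  (∀ φ ∈ 𝓢, Marked S g.toFun θ φ (ψ φ) (a φ)) →
  ∃ (h : ConHomeo Ω Λ) (Ψ : E3 → E3), Col N κ (nbr 1 B) C Ψ ∧
    (∀ x ∈ Ω, g.toFun x ∉ interior (⋃ z ∈ nbr 1 B, lbox N 0 z) → h.toFun x = g.toFun x) ∧
    (∀ x ∈ Ω, ∀ z o', g.toFun x ∈ lbox N 0 z → 0 ≤ o' →
      (∀ z' ∈ nbr 1 B, z' ∈ nbr 4 {z} → o z' ≤ o') →
      dist (h.toFun x) (Ψ (g.toFun x)) ≤ K * o') ∧
    (∀ e, S.Q.dim e = 1 → Miss N κ (nbr 1 B) g.toFun (S.Q.cell e) →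
      lipc h.toFun (S.Q.cell e) ≤ C * lipc g.toFun (S.Q.cell e) + η) ∧
    (∀ φ, S.Q.dim φ = 2 → Miss N κ (nbr 1 B) g.toFun (S.Q.cell φ) →
      S.E p h.toFun φ ≤ C * S.E p g.toFun φ + CM (S.M φ) * S.W p g.toFun φ + η ∧
      ((∃ z ∈ B, (g.toFun '' S.Q.cell φ ∩ lbox N 0 z).Nonempty) →
        S.E p h.toFun φ ≤ CM (S.M φ) * S.W p g.toFun φ + η)) ∧
    ∀ z, (z ∈ B ∨ z - Pi.single 2 1 ∈ B) →
      (∀ e x y, S.Q.dim e = 1 → S.Q.cell e = segment ℝ x y →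
        g.toFun '' S.Q.cell e ⊆ shr N κ z →
          SharpE g.toFun h.toFun x y θ η ∧ Rise g.toFun h.toFun x y ϑ η) ∧
      ∀ φ ∈ 𝓢, g.toFun '' S.Q.cell φ ⊆ shr N κ z → SharpF p h.toFun (ψ φ) (a φ) θ c η

/-! ### the holes -/

/-- normalised coordinates of a slab -/
noncomputable def nrm (N : ℕ) (t : ℝ) (y : E3) : E3 := ![2 * y 0 / N, 2 * y 1 / N, y 2 / t]

/-- the vertical stretch -/
noncomputable def vst (N : ℕ) (t : ℝ) (y : E3) : E3 := ![y 0, y 1, N / t * y 2]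

/-- the admissible centres -/
def mid (N : ℕ) (z : Fin 3 → ℤ) : Set E3 := Icc
  (fun i => (z i + if i = 2 then 1 / 3 else 1 / 4) * wd N i)
  (fun i => (z i + if i = 2 then 2 / 3 else 3 / 4) * wd N i)

open Classical in
/-- the magnification in the slab of the box `z` -/
noncomputable def kern (N : ℕ) (t : ℝ) (z : Fin 3 → ℤ) (c : E3) (β : ℝ) (y : E3) : ℝ≥0∞ :=
  if y ∈ lbox N 0 z ∧ |y 2 - c 2| ≤ t then ENNReal.ofReal (1 / max ‖nrm N t (y - c)‖ β) else 0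

/-- the magnification on the image of `X` -/
noncomputable def mag (N : ℕ) (t : ℝ) (Bp : Set (Fin 3 → ℤ)) (c : (Fin 3 → ℤ) → E3)
    (β : (Fin 3 → ℤ) → ℝ) (g : E3 → E3) (X : Set E3) : ℝ≥0∞ :=
  1 + ⨆ (x ∈ X) (z ∈ Bp), kern N t z (c z) (β z) (g x)

/-- opening the holes -/
def HOLE (p : ℝ) : Prop := ∀ κ : ℝ, 0 < κ → κ ≤ 1 / 100 → ∃ C₀ : ℝ≥0, 1 ≤ C₀ ∧
  ∀ (N : ℕ) (t : ℝ), 1 ≤ N → 0 < t → t ≤ 1 / 4 → ∃ C₁ : ℝ≥0,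
  ∀ (Bp : Set (Fin 3 → ℤ)) (c : (Fin 3 → ℤ) → E3) (β : (Fin 3 → ℤ) → ℝ), Bp.Finite →
  (∀ z ∈ Bp, c z ∈ mid N z ∧ 0 < β z ∧ β z ≤ 1 / 4) →
  ∃ Φ : ConHomeo (univ : Set E3) (univ : Set E3),
    (∀ y, y ∉ interior (⋃ z ∈ Bp, lbox N 0 z) → Φ.toFun y = y) ∧
    (∀ z, Φ.toFun '' lbox N 0 z = lbox N 0 z) ∧ LipschitzWith C₁ Φ.invFun ∧
    (∀ z ∈ Bp, ∀ y, Φ.toFun y ∈ lbox N κ z → ‖nrm N t (y - c z)‖ ≤ β z) ∧
    (∀ z ∈ Bp, ∀ y ∈ lbox N 0 z, t ≤ |y 2 - c z 2| → (∀ i, i ≠ 2 → Φ.toFun y i = y i) ∧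
      ((∀ i, i ≠ 2 → z i * wd N i + κ ≤ y i ∧ y i ≤ (z i + 1) * wd N i - κ) →
        (y 2 ≤ c z 2 → Φ.toFun y 2 ≤ z 2 + κ) ∧ (c z 2 ≤ y 2 → z 2 + 1 - κ ≤ Φ.toFun y 2))) ∧
    ∀ (g : E3 → E3) (X : Set E3), Convex ℝ X → IsCompact X → ContinuousOn g X →
      lipc (Φ.toFun ∘ g) X ≤ C₀ * mag N t Bp c β g X * lipc (vst N t ∘ g) X ∧
      En 2 p (Φ.toFun ∘ g) X ≤ (C₀ * mag N t Bp c β g X) ^ p * En 2 p (vst N t ∘ g) X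

/-- the choice of a centre -/
def CHOOSE (p : ℝ) : Prop := ∃ C : ℝ≥0, ∀ (N : ℕ) (t : ℝ) (z : Fin 3 → ℤ) {ι : Type} [Fintype ι]
  (μ : ι → Measure E3) (ϑ : ι → ℝ) (X : Set E3), 1 ≤ N → 0 < t → t ≤ 1 / 4 →
  (∀ i, 0 < ϑ i ∧ ϑ i ≤ 4) → 2 * volume (X ∩ mid N z) ≤ volume (mid N z) →
  ∃ c ∈ mid N z, c ∉ X ∧ ∀ i, ∫⁻ y in {y | ‖nrm N t (y - c)‖ ≤ ϑ i},
    (‖nrm N t (y - c)‖ₑ)⁻¹ ^ p ∂(μ i) ≤
      Fintype.card ι * C * ENNReal.ofReal (t * ϑ i ^ (3 - p)) * μ i univ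

/-! ### refilling, wires with constant speed -/

/-- refilling the three-cells and the free cubes -/
def REFILL (p : ℝ) : Prop := ∃ (C : ℝ≥0) (CM : ℝ≥0 → ℝ≥0), ∀ {Ω Λ : Set E3} (Q : RCx E3)
  (h : ConHomeo Ω Λ) (nm : Q.ι → E3 ≃ᴬ[ℝ] E3) (M : Q.ι → ℝ≥0) (η : Q.ι → ℝ≥0∞) {κ : Type}
  (x : κ → E3) (s : κ → ℝ) (η' : κ → ℝ≥0∞) (G : Set Q.ι), IsOpen Ω → Q.Cvx → Q.carrier = Ω →
  (∀ c, Q.dim c = 3 → BiChart 3 (nm c '' Q.cell c) (nm c '' Q.bd c) (M c) ∧ 0 < η c) →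
  (∀ k, 0 < s k ∧ 0 < η' k ∧ Q.Sub (closedBall (x k) (s k))) →
  (∀ k l, k ≠ l → Disjoint (closedBall (x k) (s k)) (closedBall (x l) (s l))) →
  LFIn (fun k => closedBall (x k) (s k)) Ω →
  ∃ h' : ConHomeo Ω Λ,
    (∀ u ∈ Q.skel 2, (∀ k, u ∉ ball (x k) (s k)) → h'.toFun u = h.toFun u) ∧
    (∀ k, h'.toFun '' closedBall (x k) (s k) = h.toFun '' closedBall (x k) (s k) ∧
      En 3 p h'.toFun (closedBall (x k) (s k)) ≤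
        C * ENNReal.ofReal (s k) * En 2 p h.toFun (sphere (x k) (s k)) + η' k) ∧
    ∀ c, Q.dim c = 3 → (∀ k, ¬ Q.cell c ⊆ closedBall (x k) (s k)) →
      h'.toFun '' Q.cell c = h.toFun '' Q.cell c ∧
      (c ∈ G → EqOn h'.toFun h.toFun (Q.cell c)) ∧
      (c ∉ G → En 3 p (h'.toFun ∘ (nm c).symm) (nm c '' Q.cell c) ≤
        CM (M c) * En 2 p (h.toFun ∘ (nm c).symm) (nm c '' Q.bd c) + η c)

/-- constant speed on all wires -/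
def CSW : Prop := ∀ {Ω Λ : Set E3} (Q : RCx E3) (g : ConHomeo Ω Λ) (P : Q.ι → (E3 ≃L[ℝ] E3)),
  IsOpen Ω → Q.Cvx →
  Q.carrier = Ω → ∃ Θ : ConHomeo Ω Ω, (∀ c, Θ.toFun '' Q.cell c = Q.cell c) ∧
    (∀ c (A : E3 →ᵃ[ℝ] E3), EqOn g.toFun A (Q.cell c) → EqOn Θ.toFun id (Q.cell c)) ∧
    ∀ e x y, Q.dim e = 1 → Q.cell e = segment ℝ x y →
      lipc (P e ∘ g.toFun ∘ Θ.toFun) (Q.cell e) * edist x y ≤ segVar (P e ∘ g.toFun) x y ∧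
      ∀ ℓ : E3 →L[ℝ] ℝ, segVar (fun u => ℓ (g.toFun (Θ.toFun u))) x y =
        segVar (fun u => ℓ (g.toFun u)) x y

end P073.Top
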